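import Vale.Agent.P265.Flat.LDefs

/-!
# The numbers of critical points whose minima are the Morse number and the stable Morse number
-/

open Set Manifold
open scoped ContDiff

namespace Vale.Agent.P265W27

open Vale.Agent.P265.Loc

variable (V : Type*) [NormedAddCommGroup V] [NormedSpace ℝ V]
  (W : Type*) [TopologicalSpace W] [ChartedSpace V W]

/-- `F` is a Morse function on `W × ℝ^k` which, when `k > 0`, equals a nondegenerate quadratic form
`Q(z)` for all `x` and all `|z| ≥ R`. -/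
def IsStableMorse (k : ℕ) (F : W × EuclideanSpace ℝ (Fin k) → ℝ) : Prop :=
  IsMorse (𝓘(ℝ, V).prod 𝓘(ℝ, EuclideanSpace ℝ (Fin k))) F ∧
    (0 < k → ∃ (Q : QuadraticForm ℝ (EuclideanSpace ℝ (Fin k))) (R : ℝ),
      (∀ v, (∀ w, QuadraticMap.polar Q v w = 0) → v = 0) ∧ 0 < R ∧
        ∀ x z, R ≤ ‖z‖ → F (x, z) = Q z)

/-- The numbers of critical points of Morse functions on `W`; `Morse(W)` is the least of them. -/
def morseCounts : Set ℕ :=
  {n | ∃ f : W → ℝ, IsMorse 𝓘(ℝ, V) f ∧ (Crit 𝓘(ℝ, V) f).encard = n}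

/-- The numbers of critical points of Morse functions on the `W × ℝ^k`, quadratic at infinity;
`SM(W)` is the least of them. -/
def stableCounts : Set ℕ :=
  {n | ∃ (k : ℕ) (F : W × EuclideanSpace ℝ (Fin k) → ℝ), IsStableMorse V W k F ∧
    (Crit (𝓘(ℝ, V).prod 𝓘(ℝ, EuclideanSpace ℝ (Fin k))) F).encard = n}

/-- The critical sets in the definitions of `Morse(W)` and `SM(W)` are finite, both minima exist,
and `SM(W) ≤ Morse(W)`. -/
def MinimaExist : Prop :=
  (∀ f : W → ℝ, IsMorse 𝓘(ℝ, V) f → (Crit 𝓘(ℝ, V) f).Finite) ∧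
  (∀ (k : ℕ) (F : W × EuclideanSpace ℝ (Fin k) → ℝ), IsStableMorse V W k F →
    (Crit (𝓘(ℝ, V).prod 𝓘(ℝ, EuclideanSpace ℝ (Fin k))) F).Finite) ∧
  ∃ s μ : ℕ, IsLeast (stableCounts V W) s ∧ IsLeast (morseCounts V W) μ ∧ s ≤ μ

/-- Q1: `#Fix₀ ≥ SM(M)` for every connected closed symplectic manifold `M` and every Hamiltonian
all of whose fixed points are nondegenerate. -/
def StableMorseForm : Prop :=
  ∀ (m : ℕ) (M : Type) [TopologicalSpace M] [T2Space M] [CompactSpace M] [ConnectedSpace M]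
    [ChartedSpace (EuclideanSpace ℝ (Fin m)) M] [IsManifold 𝓘(ℝ, EuclideanSpace ℝ (Fin m)) ∞ M]
    (om : FormField (EuclideanSpace ℝ (Fin m)) M) (H : ℝ → M → ℝ) (φ : ℝ → M → M) (s : ℕ),
    IsSymplectic om → IsHamiltonianFlow om H φ →
      NondegFixedPoints (EuclideanSpace ℝ (Fin m)) (φ 1) →
      IsLeast (stableCounts (EuclideanSpace ℝ (Fin m)) M) s → (s : ℕ∞) ≤ (Fix0 φ).encard

/-- The Morse-number form: the same with `Morse(M)` in place of `SM(M)`. -/
def MorseNumberForm : Prop :=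
  ∀ (m : ℕ) (M : Type) [TopologicalSpace M] [T2Space M] [CompactSpace M] [ConnectedSpace M]
    [ChartedSpace (EuclideanSpace ℝ (Fin m)) M] [IsManifold 𝓘(ℝ, EuclideanSpace ℝ (Fin m)) ∞ M]
    (om : FormField (EuclideanSpace ℝ (Fin m)) M) (H : ℝ → M → ℝ) (φ : ℝ → M → M) (μ : ℕ),
    IsSymplectic om → IsHamiltonianFlow om H φ →
      NondegFixedPoints (EuclideanSpace ℝ (Fin m)) (φ 1) →
      IsLeast (morseCounts (EuclideanSpace ℝ (Fin m)) M) μ → (μ : ℕ∞) ≤ (Fix0 φ).encard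

end Vale.Agent.P265W27
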