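import Mathlib.MeasureTheory.Function.Jacobian
import Mathlib.Analysis.Calculus.ContDiff.Operations
import Mathlib.Analysis.Calculus.FDeriv.CompCLM

/-!
# Generic members of a linear family of functions have nondegenerate critical points

A consequence of Sard's lemma in equal dimensions, and the independence of the nondegeneracy of a
critical point from the choice of coordinates.
-/

open Set MeasureTheory Filter
open scoped Topology ContDiff

namespace Vale.Agent.P265W27

/-- Sard's lemma for a linear family `a ↦ h y a` of covector fields which is onto at each point in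
the uniform way `h y (T b) = b`: the parameters with a degenerate zero form a null set. -/
theorem null_bad {A E E' : Type*} [NormedAddCommGroup A] [NormedSpace ℝ A] [FiniteDimensional ℝ A]
    [MeasurableSpace A] [BorelSpace A] [NormedAddCommGroup E] [NormedSpace ℝ E]
    [NormedAddCommGroup E'] [NormedSpace ℝ E'] (μ : Measure A) [μ.IsAddHaarMeasure]
    (J : E' ≃L[ℝ] E) {U : Set E} (hU : IsOpen U) {h : E → A →L[ℝ] E'}
    (hh : ∀ y ∈ U, DifferentiableAt ℝ h y) (T : E' →L[ℝ] A) (S : A →L[ℝ] E')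
    (hS : ∀ b, S (T b) = b) (hT : ∀ y ∈ U, ∀ b, h y (T b) = b) :
    μ {a | ∃ y ∈ U, h y a = 0 ∧ ∃ v, v ≠ 0 ∧ fderiv ℝ h y v a = 0} = 0 := by
  set θ : A →L[ℝ] E := (J : E' →L[ℝ] E).comp S with hθ
  set Ψ : A → A := fun c => c - T (h (θ c) c) with hΨ
  set D : A → A →L[ℝ] A := fun c => ContinuousLinearMap.id ℝ A -
    T.comp ((h (θ c)).comp (ContinuousLinearMap.id ℝ A) +
      ((fderiv ℝ h (θ c)).comp θ).flip c) with hD
  have hder : ∀ c, θ c ∈ U → HasFDerivAt Ψ (D c) c := by
    intro c hc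
    have h1 : HasFDerivAt (fun c => h (θ c)) ((fderiv ℝ h (θ c)).comp θ) c :=
      (hh _ hc).hasFDerivAt.comp c θ.hasFDerivAt
    have h2 := h1.clm_apply (hasFDerivAt_id c)
    exact (hasFDerivAt_id c).sub (T.hasFDerivAt.comp c h2)
  have hzero : ∀ y ∈ U, ∀ v b, fderiv ℝ h y v (T b) = 0 := by
    intro y hy v b
    have h1 : HasFDerivAt (fun y => h y (T b)) ((fderiv ℝ h y).flip (T b)) y := by
      have := (hh y hy).hasFDerivAt.clm_apply (hasFDerivAt_const (T b) y)
      simpa using this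
    have h2 : (fun y => h y (T b)) =ᶠ[𝓝 y] fun _ => b := by
      filter_upwards [hU.mem_nhds hy] with z hz using hT z hz b
    have h3 := h1.unique ((hasFDerivAt_const b y).congr_of_eventuallyEq h2)
    have h4 := congrArg (fun L : E →L[ℝ] E' => L v) h3
    simpa using h4
  have hs : μ (Ψ '' {c | θ c ∈ U ∧ (D c).det = 0}) = 0 :=
    addHaar_image_eq_zero_of_det_fderivWithin_eq_zero μ
      (fun c hc => (hder c hc.1).hasFDerivWithinAt) fun c hc => hc.2
  refine measure_mono_null ?_ hs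
  rintro a ⟨y, hy, ha, v, hv, hva⟩
  set b : E' := J.symm (y - θ a) with hb
  have hc : θ (a + T b) = y := by
    simp [hθ, hS, hb]
  refine ⟨a + T b, ⟨by rw [hc]; exact hy, ?_⟩, ?_⟩
  · by_contra hdet
    have hinj : Function.Injective (D (a + T b)) := by
      have hu : IsUnit ((D (a + T b) : A →L[ℝ] A) : A →ₗ[ℝ] A) :=
        (LinearMap.isUnit_iff_isUnit_det _).2 (isUnit_iff_ne_zero.2 hdet)
      exact ((Module.End.isUnit_iff _).1 hu).1
    have h0 : D (a + T b) (T (J.symm v)) = D (a + T b) 0 := by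
      have h1 : θ (T (J.symm v)) = v := by simp [hθ, hS]
      simp only [hD, hc, sub_apply, ContinuousLinearMap.id_apply,
        ContinuousLinearMap.comp_apply, add_apply,
        ContinuousLinearMap.flip_apply, h1, hT y hy, map_add, hva, hzero y hy, map_zero]
      simp
    have h2 := congrArg (fun c => J (S c)) (hinj h0)
    simp only [hS, ContinuousLinearEquiv.apply_symm_apply, map_zero] at h2
    exact hv h2
  · simp only [hΨ, hc, map_add, ha, hT y hy, zero_add]
    abel

/-- If `g : E → P` is a graph over the open set `U`, then for almost every linear form `a` on `P`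
all critical points of `a ∘ g` in `U` are nondegenerate. -/
theorem null_bad_forms {P E : Type*} [NormedAddCommGroup P] [NormedSpace ℝ P]
    [FiniteDimensional ℝ P] [NormedAddCommGroup E] [NormedSpace ℝ E] [FiniteDimensional ℝ E]
    [MeasurableSpace (P →L[ℝ] ℝ)] [BorelSpace (P →L[ℝ] ℝ)]
    (μ : Measure (P →L[ℝ] ℝ)) [μ.IsAddHaarMeasure] {U : Set E} (hU : IsOpen U) {g : E → P}
    (hg : ∀ y ∈ U, ContDiffAt ℝ 2 g y) (π : P →L[ℝ] E) (s : E →L[ℝ] P) (hs : ∀ v, π (s v) = v)
    (hπ : ∀ y ∈ U, π (g y) = y) :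
    μ {a | ∃ y ∈ U, fderiv ℝ (a ∘ g) y = 0 ∧ ∃ v, v ≠ 0 ∧ fderiv ℝ (fderiv ℝ (a ∘ g)) y v = 0} =
      0 := by
  have hdim : Module.finrank ℝ (E →L[ℝ] ℝ) = Module.finrank ℝ E := by
    rw [← (LinearMap.toContinuousLinearMap (𝕜 := ℝ) (E := E) (F' := ℝ)).finrank_eq]
    exact Subspace.dual_finrank_eq
  have hg1 : ∀ y ∈ U, DifferentiableAt ℝ (fderiv ℝ g) y := fun y hy =>
    ((hg y hy).fderiv_right (m := 1) (by norm_num)).differentiableAt (by norm_num)
  set L : (E →L[ℝ] P) →L[ℝ] (P →L[ℝ] ℝ) →L[ℝ] E →L[ℝ] ℝ :=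
    (ContinuousLinearMap.compL ℝ E P ℝ).flip with hL
  have hh : ∀ y ∈ U, DifferentiableAt ℝ (fun y => L (fderiv ℝ g y)) y := fun y hy =>
    DifferentiableAt.comp (𝕜 := ℝ) (F := E →L[ℝ] P) (G := (P →L[ℝ] ℝ) →L[ℝ] E →L[ℝ] ℝ) (g := L) y
      (ContinuousLinearMap.differentiableAt (E := E →L[ℝ] P) (F := (P →L[ℝ] ℝ) →L[ℝ] E →L[ℝ] ℝ) L)
      (hg1 y hy)
  have hev : ∀ a : P →L[ℝ] ℝ, ∀ u ∈ U, fderiv ℝ (a ∘ g) u = L (fderiv ℝ g u) a := by
    intro a u hu
    have h2 := fderiv_comp u a.differentiableAt ((hg u hu).differentiableAt (by norm_num))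
    rw [ContinuousLinearMap.fderiv] at h2
    exact h2
  have h0 := null_bad μ (ContinuousLinearEquiv.ofFinrankEq hdim) hU hh
    ((ContinuousLinearMap.compL ℝ P E ℝ).flip π) ((ContinuousLinearMap.compL ℝ E P ℝ).flip s)
    (fun b => by
      ext v
      simp [hs])
    (fun y hy b => by
      have h1 : π ∘ g =ᶠ[𝓝 y] id := by
        filter_upwards [hU.mem_nhds hy] with u hu using hπ u hu
      have h2 := fderiv_comp y π.differentiableAt ((hg y hy).differentiableAt (by norm_num))
      rw [h1.fderiv_eq, fderiv_id, ContinuousLinearMap.fderiv] at h2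
      ext v
      have h3 := congrArg (fun L : E →L[ℝ] E => L v) h2
      simp only [ContinuousLinearMap.id_apply, ContinuousLinearMap.comp_apply] at h3
      simp [hL, ← h3])
  refine measure_mono_null ?_ h0
  rintro a ⟨y, hy, h1, v, hv, h2⟩
  refine ⟨y, hy, by rw [← hev a y hy, h1], v, hv, ?_⟩
  have h3 : fderiv ℝ (a ∘ g) =ᶠ[𝓝 y] fun u => L (fderiv ℝ g u) a := by
    filter_upwards [hU.mem_nhds hy] with u hu using hev a u hu
  rw [h3.fderiv_eq, fderiv_clm_apply (hh y hy) (differentiableAt_const a)] at h2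
  simpa using h2

/-- The second derivative, read through evaluation. -/
theorem fderiv_fderiv_apply {E : Type*} [NormedAddCommGroup E] [NormedSpace ℝ E] {G : E → ℝ}
    {y : E} (hG : ContDiffAt ℝ 2 G y) (v w : E) :
    fderiv ℝ (fun z => fderiv ℝ G z w) y v = fderiv ℝ (fderiv ℝ G) y v w := by
  have h1 : DifferentiableAt ℝ (fderiv ℝ G) y :=
    (hG.fderiv_right (m := 1) (by norm_num)).differentiableAt (by norm_num)
  rw [fderiv_clm_apply h1 (differentiableAt_const w)]
  simp

/-- Nondegeneracy of a critical point does not depend on the coordinates. -/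
theorem nondeg_comp {E : Type*} [NormedAddCommGroup E] [NormedSpace ℝ E] [FiniteDimensional ℝ E]
    {G : E → ℝ} {τ : E → E} {z : E} (hG : ContDiffAt ℝ 2 G (τ z)) (hτ : ContDiffAt ℝ 2 τ z)
    (hinj : Function.Injective (fderiv ℝ τ z)) (hcr : fderiv ℝ G (τ z) = 0)
    (hnd : ∀ v, fderiv ℝ (fderiv ℝ G) (τ z) v = 0 → v = 0) (v : E)
    (hv : fderiv ℝ (fderiv ℝ (G ∘ τ)) z v = 0) : v = 0 := by
  have hG1 : DifferentiableAt ℝ (fderiv ℝ G) (τ z) :=
    (hG.fderiv_right (m := 1) (by norm_num)).differentiableAt (by norm_num)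
  have hτ1 : DifferentiableAt ℝ (fderiv ℝ τ) z :=
    (hτ.fderiv_right (m := 1) (by norm_num)).differentiableAt (by norm_num)
  have hτ0 : DifferentiableAt ℝ τ z := hτ.differentiableAt (by norm_num)
  have hev : fderiv ℝ (G ∘ τ) =ᶠ[𝓝 z] fun u => (fderiv ℝ G (τ u)).comp (fderiv ℝ τ u) := by
    have e1 : ∀ᶠ u in 𝓝 z, DifferentiableAt ℝ τ u :=
      (hτ.eventually (by simp)).mono fun u hu => hu.differentiableAt (by norm_num)
    have e2 : ∀ᶠ u in 𝓝 z, DifferentiableAt ℝ G (τ u) :=
      hτ0.continuousAt.eventually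
        ((hG.eventually (by simp)).mono fun u hu => hu.differentiableAt (by norm_num))
    filter_upwards [e1, e2] with u h1 h2 using fderiv_comp u h2 h1
  have h1 : HasFDerivAt (fun u => fderiv ℝ G (τ u))
      ((fderiv ℝ (fderiv ℝ G) (τ z)).comp (fderiv ℝ τ z)) z :=
    hG1.hasFDerivAt.comp z hτ0.hasFDerivAt
  have h2 := h1.clm_comp hτ1.hasFDerivAt
  rw [hev.fderiv_eq, h2.fderiv, hcr] at hv
  have hsurj : Function.Surjective (fderiv ℝ τ z) :=
    (LinearMap.injective_iff_surjective (f := (fderiv ℝ τ z : E →ₗ[ℝ] E))).1 hinj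
  have h3 : fderiv ℝ (fderiv ℝ G) (τ z) (fderiv ℝ τ z v) = 0 := by
    ext w
    obtain ⟨w', rfl⟩ := hsurj w
    have h4 := congrArg (fun L : E →L[ℝ] ℝ => L w') hv
    simpa using h4
  exact hinj ((hnd _ h3).trans (map_zero _).symm)

end Vale.Agent.P265W27
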