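import Vale.Agent.P265.H934.Standard
import Vale.Agent.P265W27.Sard

/-!
# Existence of Morse functions on closed manifolds, finiteness of their critical sets
-/

open Set MeasureTheory Filter Manifold
open scoped Topology ContDiff

namespace Vale.Agent.P265W27

open Vale.Agent.P265.Loc Vale.Agent.P265.H934

variable {E : Type*} [NormedAddCommGroup E] [NormedSpace ℝ E]
  {B : Type*} [TopologicalSpace B] {I : ModelWithCorners ℝ E B} [I.Boundaryless]
  {X : Type*} [TopologicalSpace X] [ChartedSpace B X] [IsManifold I ∞ X]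

theorem contDiffAt_chart {P : Type*} [NormedAddCommGroup P] [NormedSpace ℝ P] {F : X → P} (c : X)
    {y : E} (hy : y ∈ (extChartAt I c).target)
    (hF : ContMDiffAt I 𝓘(ℝ, P) ∞ F ((extChartAt I c).symm y)) :
    ContDiffAt ℝ 2 (F ∘ (extChartAt I c).symm) y := by
  have h1 : ContMDiffAt 𝓘(ℝ, E) I ∞ (extChartAt I c).symm y :=
    (contMDiffOn_extChartAt_symm (n := ∞) c).contMDiffAt (extChartAt_target_mem_nhds' hy)
  have h2 : ContDiffAt ℝ ∞ (F ∘ (extChartAt I c).symm) y :=
    contMDiffAt_iff_contDiffAt.1 (hF.comp y h1)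
  exact h2.of_le (WithTop.coe_le_coe.2 (le_top : (2 : ℕ∞) ≤ ⊤))

theorem contDiffAt_change (c d : X) {x : X} (hc : x ∈ (extChartAt I c).source)
    (hd : x ∈ (extChartAt I d).source) :
    ContDiffAt ℝ 2 (extChartAt I c ∘ (extChartAt I d).symm) (extChartAt I d x) := by
  refine contDiffAt_chart d ((extChartAt I d).map_source hd) ?_
  rw [(extChartAt I d).left_inv hd]
  refine contMDiffAt_extChartAt' ?_
  rwa [extChartAt_source] at hc

omit [IsManifold I ∞ X] in
theorem eventually_change (c d : X) {x : X} (hc : x ∈ (extChartAt I c).source)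
    (hd : x ∈ (extChartAt I d).source) :
    ∀ᶠ u in 𝓝 (extChartAt I d x), u ∈ (extChartAt I d).target ∧
      (extChartAt I d).symm u ∈ (extChartAt I c).source := by
  have h1 := extChartAt_target_mem_nhds' ((extChartAt I d).map_source hd)
  have h2 : ∀ᶠ u in 𝓝 (extChartAt I d x), (extChartAt I d).symm u ∈ (extChartAt I c).source := by
    refine (continuousAt_extChartAt_symm' hd).eventually ?_
    rw [(extChartAt I d).left_inv hd]
    exact extChartAt_source_mem_nhds' hc
  exact Filter.Eventually.and h1 h2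

/-- A critical point that is nondegenerate in some chart is nondegenerate. -/
theorem hessNondeg_of_chart [FiniteDimensional ℝ E] {F : X → ℝ}
    (hF : ContMDiff I 𝓘(ℝ, ℝ) ∞ F) (c : X) {x : X} (hx : x ∈ (extChartAt I c).source)
    (hcr : x ∈ Crit I F)
    (hnd : ∀ v, fderiv ℝ (fderiv ℝ (F ∘ (extChartAt I c).symm)) (extChartAt I c x) v = 0 → v = 0) :
    HessNondeg I F x := by
  intro v hv
  have hxx : x ∈ (extChartAt I x).source := mem_extChartAt_source x
  set τ : E → E := extChartAt I c ∘ (extChartAt I x).symm with hτ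
  set σ : E → E := extChartAt I x ∘ (extChartAt I c).symm with hσ
  have hτz : τ (extChartAt I x x) = extChartAt I c x := by
    simp only [hτ, Function.comp_apply, (extChartAt I x).left_inv hxx]
  have hτd : ContDiffAt ℝ 2 τ (extChartAt I x x) := contDiffAt_change c x hx hxx
  have hσd : ContDiffAt ℝ 2 σ (τ (extChartAt I x x)) := by
    rw [hτz]
    exact contDiffAt_change x c hxx hx
  have hid : σ ∘ τ =ᶠ[𝓝 (extChartAt I x x)] id := by
    filter_upwards [eventually_change c x hx hxx] with u hu
    simp only [hσ, hτ, Function.comp_apply, (extChartAt I c).left_inv hu.2,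
      (extChartAt I x).right_inv hu.1, id]
  have hinj : Function.Injective (fderiv ℝ τ (extChartAt I x x)) := by
    have h1 := fderiv_comp (extChartAt I x x) (hσd.differentiableAt (by norm_num))
      (hτd.differentiableAt (by norm_num))
    rw [hid.fderiv_eq, fderiv_id] at h1
    intro a b hab
    have ha := congrArg (fun L : E →L[ℝ] E => L a) h1
    have hb := congrArg (fun L : E →L[ℝ] E => L b) h1
    simp only [ContinuousLinearMap.id_apply, ContinuousLinearMap.comp_apply] at ha hb
    rw [ha, hb, hab]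
  have hG : ContDiffAt ℝ 2 (F ∘ (extChartAt I c).symm) (τ (extChartAt I x x)) := by
    rw [hτz]
    exact contDiffAt_chart c ((extChartAt I c).map_source hx) (hF _)
  have hev : (F ∘ (extChartAt I c).symm) ∘ τ =ᶠ[𝓝 (extChartAt I x x)]
      F ∘ (extChartAt I x).symm := by
    filter_upwards [eventually_change c x hx hxx] with u hu
    simp only [hτ, Function.comp_apply, (extChartAt I c).left_inv hu.2]
  refine nondeg_comp hG hτd hinj ?_ ?_ v ?_
  · rw [hτz]
    exact (mem_Crit_iff hF c hx).1 hcr
  · rw [hτz]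
    exact hnd
  · rw [hev.fderiv.fderiv_eq]
    ext w
    rw [← fderiv_fderiv_apply
      (contDiffAt_chart x ((extChartAt I x).map_source hxx) (hF _)) v w]
    exact hv w

/-- Every closed manifold carries a Morse function. -/
theorem exists_isMorse [FiniteDimensional ℝ E] [T2Space X] [CompactSpace X] :
    ∃ F : X → ℝ, IsMorse I F := by
  classical
  obtain ⟨ι, f, -⟩ :=
    SmoothBumpCovering.exists_isSubordinate I isClosed_univ fun (x : X) _ => univ_mem
  have := f.fintype
  set e : X → ι → E := fun x i => f i x • extChartAt I (f.c i) x with he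
  have hes : ContMDiff I 𝓘(ℝ, ι → E) ∞ e :=
    contMDiff_pi_space.2 fun i => (f i).contMDiff_smul contMDiffOn_extChartAt
  borelize ((ι → E) →L[ℝ] ℝ)
  let U : ι → Set E := fun i =>
    interior {y | y ∈ (extChartAt I (f.c i)).target ∧ f i ((extChartAt I (f.c i)).symm y) = 1}
  let Bad : ι → Set ((ι → E) →L[ℝ] ℝ) := fun i =>
    {a | ∃ y ∈ U i, fderiv ℝ (a ∘ (e ∘ (extChartAt I (f.c i)).symm)) y = 0 ∧
      ∃ v, v ≠ 0 ∧ fderiv ℝ (fderiv ℝ (a ∘ (e ∘ (extChartAt I (f.c i)).symm))) y v = 0}
  have hnull : ∀ i, Measure.addHaar (Bad i) = 0 := by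
    intro i
    refine null_bad_forms Measure.addHaar isOpen_interior
      (fun y hy => contDiffAt_chart _ (interior_subset hy).1 (hes _))
      (ContinuousLinearMap.proj i) (ContinuousLinearMap.single ℝ (fun _ : ι => E) i)
      (fun v => by simp) fun y hy => ?_
    have hu := interior_subset hy
    simp only [he, Function.comp_apply, ContinuousLinearMap.proj_apply, hu.2, one_smul,
      (extChartAt I (f.c i)).right_inv hu.1]
  obtain ⟨a, ha⟩ : ∃ a, ∀ i, a ∉ Bad i := by
    have h1 := measure_iUnion_null hnull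
    by_contra hcon
    push Not at hcon
    rw [eq_univ_of_forall fun a => mem_iUnion.2 (hcon a)] at h1
    exact (Measure.measure_univ_pos.2 (NeZero.ne _)).ne' h1
  have hF : ContMDiff I 𝓘(ℝ, ℝ) ∞ (a ∘ e) := a.contMDiff.comp hes
  refine ⟨a ∘ e, hF, fun x hx => ?_⟩
  set i := f.ind x (mem_univ x) with hi
  have hxs : x ∈ (extChartAt I (f.c i)).source := f.mem_extChartAt_ind_source x (mem_univ x)
  have hyU : extChartAt I (f.c i) x ∈ U i := by
    refine mem_interior_iff_mem_nhds.2 ?_
    have h1 := extChartAt_target_mem_nhds' ((extChartAt I (f.c i)).map_source hxs)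
    have h2 : ∀ᶠ u in 𝓝 (extChartAt I (f.c i) x), f i ((extChartAt I (f.c i)).symm u) = 1 := by
      refine (continuousAt_extChartAt_symm' hxs).eventually (p := fun z => f i z = 1) ?_
      rw [(extChartAt I (f.c i)).left_inv hxs]
      exact f.eventuallyEq_one x (mem_univ x)
    exact Filter.Eventually.and h1 h2
  refine hessNondeg_of_chart hF (f.c i) hxs hx fun v hv => ?_
  by_contra hv0
  exact ha i ⟨_, hyU, (mem_Crit_iff hF _ hxs).1 hx, v, hv0, hv⟩

/-- The critical points of a Morse function do not accumulate. -/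
theorem exists_nhds_crit [FiniteDimensional ℝ E] {F : X → ℝ} (hF : IsMorse I F) (x : X) :
    ∃ U ∈ 𝓝 x, ∀ y ∈ U, y ∈ Crit I F → y = x := by
  have hxx : x ∈ (extChartAt I x).source := mem_extChartAt_source x
  have hG : ContDiffAt ℝ 2 (F ∘ (extChartAt I x).symm) (extChartAt I x x) :=
    contDiffAt_chart x ((extChartAt I x).map_source hxx) (hF.1 _)
  have hG1 : DifferentiableAt ℝ (fderiv ℝ (F ∘ (extChartAt I x).symm)) (extChartAt I x x) :=
    (hG.fderiv_right (m := 1) (by norm_num)).differentiableAt (by norm_num)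
  have key : ∀ᶠ u in 𝓝 (extChartAt I x x), u ≠ extChartAt I x x →
      fderiv ℝ (F ∘ (extChartAt I x).symm) u ≠ 0 := by
    by_cases hx : x ∈ Crit I F
    · have h0 := (mem_Crit_iff hF.1 x hxx).1 hx
      have hker : LinearMap.ker ((fderiv ℝ (fderiv ℝ (F ∘ (extChartAt I x).symm))
          (extChartAt I x x) : E →L[ℝ] E →L[ℝ] ℝ) : E →ₗ[ℝ] E →L[ℝ] ℝ) = ⊥ := by
        refine LinearMap.ker_eq_bot'.2 fun v hv => hF.2 x hx v fun w => ?_
        rw [fderiv_fderiv_apply hG v w]
        exact congrArg (fun L : E →L[ℝ] ℝ => L w) hv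
      obtain ⟨K, -, hK⟩ := LinearMap.exists_antilipschitzWith _ hker
      have h1 := hG1.hasFDerivAt.eventually_ne (c := 0) ⟨K, hK⟩
      exact eventually_nhdsWithin_iff.1 h1
    · have h0 : fderiv ℝ (F ∘ (extChartAt I x).symm) (extChartAt I x x) ≠ 0 := fun h =>
        hx ((mem_Crit_iff hF.1 x hxx).2 h)
      exact (hG1.continuousAt.eventually_ne h0).mono fun u hu _ => hu
  refine ⟨_, Filter.Eventually.and (extChartAt_source_mem_nhds (I := I) x)
    ((continuousAt_extChartAt (I := I) x).eventually key), fun y hy hc => ?_⟩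
  by_contra hne
  exact hy.2 (fun h => hne ((extChartAt I x).injOn hy.1 hxx h)) ((mem_Crit_iff hF.1 x hy.1).1 hc)

/-- A Morse function has finitely many critical points in a compact set. -/
theorem finite_crit_of_subset [FiniteDimensional ℝ E] {F : X → ℝ} (hF : IsMorse I F) {K : Set X}
    (hK : IsCompact K) (hs : Crit I F ⊆ K) : (Crit I F).Finite := by
  choose U hU hU' using exists_nhds_crit hF
  obtain ⟨t, -, ht⟩ := hK.elim_nhds_subcover U fun x _ => hU x
  refine t.finite_toSet.subset fun y hy => ?_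
  obtain ⟨x, hx, hyx⟩ := mem_iUnion₂.1 (ht (hs hy))
  rw [hU' x y hyx hy]
  exact hx

end Vale.Agent.P265W27
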