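import Vale.Agent.P265.H363.Base
import Vale.Agent.P265W27.Defs
import Vale.Agent.P265W27.Morse

/-!
# The Morse number and the stable Morse number are attained minima; both forms of the bound fail
-/

open Set Filter Manifold
open scoped Topology ContDiff

namespace Vale.Agent.P265W27

open Vale.Agent.P265.Loc Vale.Agent.P265.H934

section

variable {V : Type*} [NormedAddCommGroup V] [NormedSpace ℝ V]
  {W : Type*} [TopologicalSpace W] [ChartedSpace V W]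

/-- A function that is quadratic at infinity has no critical points at infinity. -/
theorem norm_le_of_crit {Z : Type*} [NormedAddCommGroup Z] [NormedSpace ℝ Z] {F : W × Z → ℝ}
    (hF : ContMDiff (𝓘(ℝ, V).prod 𝓘(ℝ, Z)) 𝓘(ℝ, ℝ) ∞ F) {Q : QuadraticForm ℝ Z} {R : ℝ}
    (hQ : ∀ v, (∀ w, QuadraticMap.polar Q v w = 0) → v = 0) (hR : 0 < R)
    (hFQ : ∀ x z, R ≤ ‖z‖ → F (x, z) = Q z) {p : W × Z}
    (hp : p ∈ Crit (𝓘(ℝ, V).prod 𝓘(ℝ, Z)) F) : ‖p.2‖ ≤ R := by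
  obtain ⟨x, z⟩ := p
  by_contra hlt
  have hlt' : R < ‖z‖ := not_le.1 hlt
  have hz : z = 0 := by
    refine hQ z fun w => ?_
    have hl : Differentiable ℝ fun t : ℝ => z + t • w := by fun_prop
    have hγ : MDifferentiableAt 𝓘(ℝ, ℝ) (𝓘(ℝ, V).prod 𝓘(ℝ, Z)) (fun t : ℝ => (x, z + t • w)) 0 :=
      mdifferentiableAt_const.prodMk (hl 0).mdifferentiableAt
    have hFd : MDifferentiableAt (𝓘(ℝ, V).prod 𝓘(ℝ, Z)) 𝓘(ℝ, ℝ) F (x, z + (0 : ℝ) • w) :=
      (hF _).mdifferentiableAt (by simp)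
    have h1 := mfderiv_comp (0 : ℝ) (g := F) (f := fun t : ℝ => (x, z + t • w)) hFd hγ
    have h2 : mfderiv (𝓘(ℝ, V).prod 𝓘(ℝ, Z)) 𝓘(ℝ, ℝ) F (x, z + (0 : ℝ) • w) = 0 := by
      rw [zero_smul, add_zero]
      exact hp
    have h3 : fderiv ℝ (F ∘ fun t : ℝ => (x, z + t • w)) 0 = 0 := by
      rw [← mfderiv_eq_fderiv, h1, h2]
      exact ContinuousLinearMap.zero_comp _
    have h4 : (F ∘ fun t : ℝ => (x, z + t • w)) =ᶠ[𝓝 0]
        fun t => Q z + t * QuadraticMap.polar Q z w + t ^ 2 * Q w := by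
      have h5 : ∀ᶠ t : ℝ in 𝓝 0, R < ‖z + t • w‖ :=
        (hl 0).continuousAt.norm.eventually (lt_mem_nhds (by simpa using hlt'))
      filter_upwards [h5] with t ht
      rw [Function.comp_apply, hFQ x _ ht.le, QuadraticMap.map_add Q, QuadraticMap.map_smul,
        QuadraticMap.polar_smul_right]
      simp only [smul_eq_mul]
      ring
    have h6 : HasDerivAt (fun t : ℝ => Q z + t * QuadraticMap.polar Q z w + t ^ 2 * Q w)
        (QuadraticMap.polar Q z w) 0 := by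
      have := (((hasDerivAt_id (0 : ℝ)).mul_const (QuadraticMap.polar Q z w)).const_add (Q z)).add
        ((hasDerivAt_pow 2 (0 : ℝ)).mul_const (Q w))
      exact this.congr_deriv (by simp)
    rw [← h6.deriv, ← h4.deriv_eq, ← fderiv_apply_one_eq_deriv, h3]
    rfl
  rw [hz, norm_zero] at hlt'
  exact lt_asymm hR hlt'

/-- A Morse function on `W × ℝ^k`, quadratic at infinity, has finitely many critical points. -/
theorem IsStableMorse.finite [FiniteDimensional ℝ V] [IsManifold 𝓘(ℝ, V) ∞ W] [CompactSpace W]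
    {k : ℕ} {F : W × EuclideanSpace ℝ (Fin k) → ℝ} (hF : IsStableMorse V W k F) :
    (Crit (𝓘(ℝ, V).prod 𝓘(ℝ, EuclideanSpace ℝ (Fin k))) F).Finite := by
  rcases Nat.eq_zero_or_pos k with rfl | hk
  · refine finite_crit_of_subset hF.1 (isCompact_univ.prod (isCompact_singleton (x := 0))) ?_
    exact fun p _ => ⟨mem_univ _, Subsingleton.elim _ _⟩
  · obtain ⟨Q, R, hQ, hR, hFQ⟩ := hF.2 hk
    refine finite_crit_of_subset hF.1 (isCompact_univ.prod (isCompact_closedBall 0 R)) ?_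
    exact fun p hp => ⟨mem_univ _, mem_closedBall_zero_iff.2 (norm_le_of_crit hF.1.1 hQ hR hFQ hp)⟩

theorem crit_comp_fst {Z : Type*} [NormedAddCommGroup Z] [NormedSpace ℝ Z] {f : W → ℝ}
    (hf : ContMDiff 𝓘(ℝ, V) 𝓘(ℝ, ℝ) ∞ f) (p : W × Z) :
    p ∈ Crit (𝓘(ℝ, V).prod 𝓘(ℝ, Z)) (f ∘ Prod.fst) ↔ p.1 ∈ Crit 𝓘(ℝ, V) f := by
  have h1 := mfderiv_comp (I := 𝓘(ℝ, V).prod 𝓘(ℝ, Z)) p (g := f) (f := Prod.fst)
    ((hf _).mdifferentiableAt (by simp)) mdifferentiableAt_fst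
  rw [mfderiv_fst] at h1
  change mfderiv _ _ (f ∘ Prod.fst) p = 0 ↔ mfderiv _ _ f p.1 = 0
  rw [h1]
  constructor
  · intro h
    ext v
    exact congrArg (fun L => L (v, 0)) h
  · intro h
    rw [h]
    exact ContinuousLinearMap.zero_comp _

/-- A Morse function on `W` is a Morse function on `W × ℝ⁰`. -/
theorem isMorse_comp_fst {Z : Type*} [NormedAddCommGroup Z] [NormedSpace ℝ Z] [Unique Z]
    {f : W → ℝ} (hf : IsMorse 𝓘(ℝ, V) f) :
    IsMorse (𝓘(ℝ, V).prod 𝓘(ℝ, Z)) (f ∘ Prod.fst : W × Z → ℝ) := by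
  refine ⟨hf.1.comp contMDiff_fst, fun p hp v hv => ?_⟩
  set e : (V × Z) ≃L[ℝ] V := ContinuousLinearEquiv.prodUnique ℝ V Z with he
  set G : V → ℝ := f ∘ (extChartAt 𝓘(ℝ, V) p.1).symm with hG
  have h1 : (f ∘ Prod.fst : W × Z → ℝ) ∘ (extChartAt (𝓘(ℝ, V).prod 𝓘(ℝ, Z)) p).symm = G ∘ e := by
    rw [extChartAt_prod]
    rfl
  have h2 : e (extChartAt (𝓘(ℝ, V).prod 𝓘(ℝ, Z)) p p) = extChartAt 𝓘(ℝ, V) p.1 p.1 := by
    rw [extChartAt_prod]
    rfl
  refine e.injective ((hf.2 p.1 ((crit_comp_fst hf.1 p).1 hp) (e v) fun w => ?_).trans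
    (map_zero e).symm)
  have h3 := hv (e.symm w)
  have h4 : (fun y => fderiv ℝ (G ∘ e) y (e.symm w)) = (fun u => fderiv ℝ G u w) ∘ e := by
    funext y
    rw [e.comp_right_fderiv]
    simp
  rw [h1, h4, e.comp_right_fderiv, h2] at h3
  exact h3

theorem morseCounts_subset : morseCounts V W ⊆ stableCounts V W := by
  rintro n ⟨f, hf, hn⟩
  refine ⟨0, f ∘ Prod.fst, ⟨isMorse_comp_fst hf, fun h => absurd h (lt_irrefl 0)⟩, ?_⟩
  rw [← hn]
  have h1 : Crit 𝓘(ℝ, V) f = Prod.fst ''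
      Crit (𝓘(ℝ, V).prod 𝓘(ℝ, EuclideanSpace ℝ (Fin 0)))
        (f ∘ Prod.fst : W × EuclideanSpace ℝ (Fin 0) → ℝ) := by
    ext x
    constructor
    · intro hx
      exact ⟨(x, 0), (crit_comp_fst hf.1 _).2 hx, rfl⟩
    · rintro ⟨p, hp, rfl⟩
      exact (crit_comp_fst hf.1 p).1 hp
  rw [h1, InjOn.encard_image]
  exact fun p _ q _ h => Prod.ext h (Subsingleton.elim _ _)

theorem stableMorseNumber_le {n : ℕ} (hn : n ∈ stableCounts V W) : StableMorseNumber V W ≤ n := by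
  obtain ⟨k, F, hF, hn⟩ := hn
  refine (iInf_le _ k).trans ?_
  rw [← hn]
  refine iInf_le_of_le F (iInf_le_of_le hF.1 (iInf_le_of_le (fun hZ => hF.2 ?_) le_rfl))
  rcases Nat.eq_zero_or_pos k with rfl | hk
  · exact absurd hZ (not_nontrivial _)
  · exact hk

/-- Both minima exist, and `SM(W) ≤ Morse(W)`. -/
theorem exists_isLeast [FiniteDimensional ℝ V] [IsManifold 𝓘(ℝ, V) ∞ W] [T2Space W]
    [CompactSpace W] :
    ∃ s μ : ℕ, IsLeast (stableCounts V W) s ∧ IsLeast (morseCounts V W) μ ∧ s ≤ μ := by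
  obtain ⟨f, hf⟩ := exists_isMorse (I := 𝓘(ℝ, V)) (X := W)
  have hfin := finite_crit_of_subset hf isCompact_univ (subset_univ _)
  have h1 : (morseCounts V W).Nonempty := ⟨_, f, hf, hfin.cast_ncard_eq.symm⟩
  have h2 : (stableCounts V W).Nonempty := h1.mono morseCounts_subset
  exact ⟨sInf (stableCounts V W), sInf (morseCounts V W),
    ⟨Nat.sInf_mem h2, fun _ h => Nat.sInf_le h⟩, ⟨Nat.sInf_mem h1, fun _ h => Nat.sInf_le h⟩,
    Nat.sInf_le (morseCounts_subset (Nat.sInf_mem h1))⟩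

end

/-- Counterexamples in every even dimension at least six, with the minima as natural numbers. -/
theorem counterexample (n : ℕ) (hn : 3 ≤ n) :
    ∃ (M : Type) (_ : TopologicalSpace M) (_ : T2Space M) (_ : CompactSpace M)
      (_ : ConnectedSpace M) (_ : ChartedSpace (EuclideanSpace ℝ (Fin (2 * n))) M)
      (_ : IsManifold 𝓘(ℝ, EuclideanSpace ℝ (Fin (2 * n))) ∞ M)
      (om : FormField (EuclideanSpace ℝ (Fin (2 * n))) M) (H : ℝ → M → ℝ) (φ : ℝ → M → M)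
      (N s μ : ℕ), IsSymplectic om ∧ IsHamiltonianFlow om H φ ∧
        NondegFixedPoints (EuclideanSpace ℝ (Fin (2 * n))) (φ 1) ∧
        {x | φ 1 x = x}.encard = N ∧
        IsLeast (stableCounts (EuclideanSpace ℝ (Fin (2 * n))) M) s ∧
        IsLeast (morseCounts (EuclideanSpace ℝ (Fin (2 * n))) M) μ ∧
        N ≤ 2 ^ (n + 1) ∧ 2 ^ (n + 1) + 2 ^ ((n - 2) / 4) ≤ s ∧ s ≤ μ := by
  obtain ⟨M, _, _, _, _, _, _, om, H, φ, h1, h2, h3, h4, h5⟩ :=
    Vale.Agent.P265.H363.every_dimension n hn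
  obtain ⟨s, μ, hs, hμ, hle⟩ := exists_isLeast (V := EuclideanSpace ℝ (Fin (2 * n))) (W := M)
  have hfin : {x | φ 1 x = x}.Finite :=
    finite_of_encard_le_coe (k := 2 ^ (n + 1)) (by exact_mod_cast h4)
  refine ⟨M, inferInstance, inferInstance, inferInstance, inferInstance, inferInstance,
    inferInstance, om, H, φ, {x | φ 1 x = x}.ncard, s, μ, h1, h2, h3, hfin.cast_ncard_eq.symm,
    hs, hμ, ?_, ?_, hle⟩
  · rw [← hfin.cast_ncard_eq] at h4
    exact_mod_cast h4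
  · exact_mod_cast h5.trans (stableMorseNumber_le hs.1)

end Vale.Agent.P265W27
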